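import Vale.Agent.P299G40.Defs

/-!
# P299G40: the rows
-/

open scoped Manifold ContDiff
open MvPolynomial Vale.Agent.P272.K Vale.Agent.P299.Final
open Vale.Agent.P009.AV (IrrClosed aff)

namespace Vale.Agent.P299G40

/-- A smooth projective variety is a complex manifold. -/
def EXI : Prop := ∀ (n N : ℕ) (Z : Set (PN N)), IsSmoothVariety n Z →
  ∃ (X : Type) (_ : TopologicalSpace X) (_ : T2Space X) (_ : CompactSpace X)
    (_ : ChartedSpace (Cm n) X) (_ : IsManifold 𝓘(ℂ, Cm n) ω X) (Φ : X → PN N),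
    IsAnalytification n Z Φ

/-- The manifold of an irreducible variety is connected. -/
def CONN : Prop := ∀ (n N : ℕ) (Z : Set (PN N)) (X : Type) [TopologicalSpace X] [T2Space X]
  [CompactSpace X] [ChartedSpace (Cm n) X] [IsManifold 𝓘(ℂ, Cm n) ω X] (Φ : X → PN N),
  IrrClosed Z → IsAnalytification n Z Φ → ConnectedSpace X

/-- Holomorphic sections of `O(k + 1)` are algebraic. -/
def GAGA : Prop := ∀ (n N : ℕ) (Z : Set (PN N)) (X : Type) [TopologicalSpace X] [T2Space X]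
  [CompactSpace X] [ConnectedSpace X] [ChartedSpace (Cm n) X] [IsManifold 𝓘(ℂ, Cm n) ω X]
  (Φ : X → PN N), IsAnalytification n Z Φ → ∀ (k : ℕ) (u : Fin (N + 1) → X → ℂ),
    (∀ a x (e : Chart n X), (Φ x).rep a ≠ 0 → At e x →
      AnalyticAt ℂ (fun z => u a (e.symm z)) (e x)) →
    (∀ a b x, (Φ x).rep a ≠ 0 → (Φ x).rep b ≠ 0 → u a x = aff a (Φ x) b ^ (k + 1) * u b x) →
    ∀ i x₀, (Φ x₀).rep i ≠ 0 → ∃ P Q : MvPolynomial (Fin (N + 1)) ℂ,
      eval (aff i (Φ x₀)) Q ≠ 0 ∧ ∀ x, (Φ x).rep i ≠ 0 →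
        eval (aff i (Φ x)) Q * u i x = eval (aff i (Φ x)) P

/-- The tangent frames: `vol` is `jac` times a determinant that does not depend on `i`, `J`; the
sets `dom` cover `Z`. -/
def FRM : Prop := ∀ (n N : ℕ) (Z : Set (PN N)) (X : Type) [TopologicalSpace X]
  [ChartedSpace (Cm n) X] [IsManifold 𝓘(ℂ, Cm n) ω X] (Φ : X → PN N), IsSmoothVariety n Z →
  IsAnalytification n Z Φ → ∀ (e : Chart n X) (x : X), At e x →
    (∀ w : Fin n → Fin (N + 1) → ℂ, (∀ l, w l ∈ tangent Z (Φ x)) → ∃ c : ℂ,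
      ∀ i J, (Φ x).rep i ≠ 0 → vol i J (Φ x) w = jac Φ e i J x * c) ∧
    (∀ i J, Φ x ∈ dom Z i J ↔ (Φ x).rep i ≠ 0 ∧ jac Φ e i J x ≠ 0) ∧
    ∃ i, ∃ J : Fin n → Fin (N + 1), Φ x ∈ dom Z i J

/-- Holomorphic sections of `-mK` are algebraic. -/
def ALG : Prop := ∀ (n N : ℕ) (Z : Set (PN N)) (X : Type) [TopologicalSpace X] [T2Space X]
  [CompactSpace X] [ConnectedSpace X] [ChartedSpace (Cm n) X] [IsManifold 𝓘(ℂ, Cm n) ω X]
  (Φ : X → PN N), IsSmoothVariety n Z → IsAnalytification n Z Φ →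
    ∀ (m : ℕ) (s : Chart n X → Cm n → ℂ), IsAnticanonicalSection m s →
      ∃ g, IsRegularSection Z m g ∧ Represents Z Φ m s g

/-- Algebraic sections of `-mK` are holomorphic. -/
def HOL : Prop := ∀ (n N : ℕ) (Z : Set (PN N)) (X : Type) [TopologicalSpace X]
  [ChartedSpace (Cm n) X] [IsManifold 𝓘(ℂ, Cm n) ω X]
  (Φ : X → PN N), IsSmoothVariety n Z → IsAnalytification n Z Φ →
    ∀ (m : ℕ) (g : Fin (N + 1) → (Fin n → Fin (N + 1)) → PN N → ℂ), IsRegularSection Z m g →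
      ∃ s, IsAnticanonicalSection m s ∧ Represents Z Φ m s g

end Vale.Agent.P299G40
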