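import Vale.Agent.P299G40.Rows
import Vale.Agent.P299.H223.FS

/-!
# P299G40: the graph of a section of `O(k + 1)` as a projective immersion
-/

set_option linter.all false

open scoped Manifold ContDiff Topology
open Vale.Agent.P272.K Vale.Agent.P300.Final Vale.Agent.P299.H223
open Vale.Agent.P009.AV (aff)

noncomputable section

namespace Vale.Agent.P299G40

variable {n N : ℕ} {X : Type} [TopologicalSpace X] [ChartedSpace (Cm n) X]

theorem at_chart (x : X) : At (chartAt (Cm n) x : Chart n X) x :=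
  ⟨chart_mem_atlas _ _, mem_chart_source _ _⟩

theorem ev_symm {e : Chart n X} {x : X} (h : At e x) {W : Set X} (o : IsOpen W) (hx : x ∈ W) :
    ∀ᶠ z in 𝓝 (e x), e.symm z ∈ W := (e.tendsto_symm h.2).eventually (o.mem_nhds hx)

/-- lifts near every point give a projective immersion -/
theorem imm_of_lift {M : ℕ} {Ψ : X → Projectivization ℂ (Fin M → ℂ)}
    (h : ∀ x, ∃ W s, x ∈ W ∧ IsLift n Ψ W s) : IsProjectiveImmersion (Cm n) Ψ := by
  intro x
  obtain ⟨W, s, hx, L⟩ := h x
  have d : ∀ y ∈ W, ContMDiffAt 𝓘(ℂ, Cm n) 𝓘(ℂ, Fin M → ℂ) ω s y := fun y hy => by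
    have c : ContinuousAt s y := by
      have := ((L.holo y hy _ (at_chart y)).continuousAt.comp
        ((chartAt (Cm n) y).continuousAt (mem_chart_source _ y)))
      refine this.congr ?_
      filter_upwards [(chartAt (Cm n) y).open_source.mem_nhds (mem_chart_source _ y)] with z hz
      exact congrArg s ((chartAt (Cm n) y).left_inv hz)
    refine contMDiffAt_iff.2 ⟨c, ?_⟩
    simp only [mfld_simps, contDiffWithinAt_univ]
    exact L.holo y hy _ (at_chart y)
  refine ⟨W, s, hx, ⟨L.isOpen, fun y hy => (d y hy).contMDiffWithinAt⟩,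
    fun y hy => ⟨L.ne y hy, L.eq y hy⟩, fun y hy v c hv => L.imm y hy _ (at_chart y) v c ?_⟩
  rw [differential, ((d y hy).mdifferentiableAt (by simp)).mfderiv] at hv
  simp only [mfld_simps, writtenInExtChartAt, fderivWithin_univ] at hv
  exact hv

theorem aff_mk {s : Fin (N + 1) → ℂ} (h : s ≠ 0) (a : Fin (N + 1)) :
    ((Projectivization.mk ℂ s h).rep a ≠ 0 ↔ s a ≠ 0) ∧
      aff a (Projectivization.mk ℂ s h) = fun j => s j / s a := by
  obtain ⟨c, hc⟩ := Projectivization.exists_smul_eq_mk_rep ℂ s h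
  refine ⟨by simp [← hc, Units.smul_def], funext fun j => ?_⟩
  simp only [aff, ← hc, Units.smul_def, Pi.smul_apply, smul_eq_mul]
  exact mul_div_mul_left _ _ c.ne_zero

theorem aff_ne {z : PN N} {a : Fin (N + 1)} (h : z.rep a ≠ 0) : aff a z ≠ 0 := fun e =>
  one_ne_zero ((div_self h).symm.trans (congrFun e a))

theorem mk_aff {z : PN N} {a : Fin (N + 1)} (h : z.rep a ≠ 0) :
    z = Projectivization.mk ℂ (aff a z) (aff_ne h) := by
  conv_lhs => rw [← z.mk_rep]
  exact (Projectivization.mk_eq_mk_iff' ℂ _ _ _ _).2 ⟨z.rep a, funext fun j => mul_div_cancel₀ _ h⟩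

variable [IsManifold 𝓘(ℂ, Cm n) ω X] {Φ : X → PN N}

/-- the affine coordinates are a lift -/
theorem lift_aff (hΦ : IsProjectiveImmersion (Cm n) Φ) (a : Fin (N + 1)) :
    IsLift n Φ {x | (Φ x).rep a ≠ 0} fun x => aff a (Φ x) := by
  have key : ∀ x, (Φ x).rep a ≠ 0 → ∃ W s, x ∈ W ∧ IsLift n Φ W s ∧ s x a ≠ 0 ∧
      ∀ y ∈ W, ((Φ y).rep a ≠ 0 ↔ s y a ≠ 0) ∧ aff a (Φ y) = fun j => s y j / s y a := by
    intro x hx
    obtain ⟨W, s, w, L⟩ := exists_isLift hΦ x
    have : ∀ y ∈ W, ((Φ y).rep a ≠ 0 ↔ s y a ≠ 0) ∧ aff a (Φ y) = fun j => s y j / s y a :=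
      fun y hy => by rw [L.eq y hy]; exact aff_mk _ a
    exact ⟨W, s, w, L, (this x w).1.1 hx, this⟩
  have ho : ∀ x, (Φ x).rep a ≠ 0 → ∀ e : Chart n X, At e x →
      ContDiffAt ℂ ω (fun z => aff a (Φ (e.symm z))) (e x) := fun x hx e he => by
    obtain ⟨W, s, w, L, s0, k⟩ := key x hx
    have d := contDiffAt_pi.1 (L.holo x w e he)
    refine (contDiffAt_pi.2 fun j => (d j).div (d a) (by rwa [he.left_inv])).congr_of_eventuallyEq ?_
    filter_upwards [ev_symm he L.isOpen w] with z hz using (k _ hz).2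
  refine ⟨isOpen_iff_mem_nhds.2 fun x hx => ?_, ho, fun x hx => aff_ne hx, fun x hx => mk_aff hx,
    fun x hx e he v c hv => ?_⟩
  · obtain ⟨W, s, w, L, s0, k⟩ := key x hx
    have he := at_chart (n := n) x
    have c := ((contDiffAt_pi.1 (L.holo x w _ he) a).continuousAt.comp
      ((chartAt (Cm n) x).continuousAt he.2)).eventually_ne (y := 0) (by
        simpa only [Function.comp_apply, he.left_inv] using s0)
    filter_upwards [c, L.isOpen.mem_nhds w, (chartAt (Cm n) x).open_source.mem_nhds he.2]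
      with y y1 y2 y3
    rw [Function.comp_apply, (chartAt (Cm n) x).left_inv y3] at y1
    exact (k y y2).1.2 y1
  · obtain ⟨W, s, w, L, s0, k⟩ := key x hx
    have d := (contDiffAt_pi.1 (L.holo x w e he) a).differentiableAt (by simp)
    have q : (fun z => s (e.symm z)) =ᶠ[𝓝 (e x)] fun z => s (e.symm z) a • aff a (Φ (e.symm z)) := by
      filter_upwards [ev_symm he L.isOpen w, d.continuousAt.eventually_ne (y := 0) (by
        simpa only [he.left_inv] using s0)] with z z1 z2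
      rw [(k _ z1).2]
      exact funext fun j => (mul_div_cancel₀ _ z2).symm
    have q0 := q.eq_of_nhds
    simp only [he.left_inv] at q0
    refine L.imm x w e he v (c + fderiv ℂ (fun z => s (e.symm z) a) (e x) v / s x a) ?_
    rw [q.fderiv_eq, fderiv_fun_smul d ((ho x hx e he).differentiableAt (by simp))]
    simp only [ContinuousLinearMap.add_apply, ContinuousLinearMap.smul_apply, hv, he.left_inv,
      ContinuousLinearMap.smulRight_apply]
    generalize s x a = b at s0 q0 ⊢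
    rw [q0, smul_smul, smul_smul, add_mul, div_mul_cancel₀ _ s0, add_smul, mul_comm]

/-- the monomials `y_p^k y_q` -/
def mon (k : ℕ) {R : Type} [CommRing R] (y : Fin (N + 1) → R) : Fin ((N + 1) * (N + 1)) → R :=
  fun j => y (finProdFinEquiv.symm j).1 ^ k * y (finProdFinEquiv.symm j).2

/-- homogeneous coordinates of the graph -/
def gr (k : ℕ) (t : ℂ) (y : Fin (N + 1) → ℂ) : Fin ((N + 1) * (N + 1) + 1) → ℂ :=
  Fin.cons t (mon k y)

theorem gr_succ (k : ℕ) (t : ℂ) (y : Fin (N + 1) → ℂ) (p q : Fin (N + 1)) :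
    gr k t y (finProdFinEquiv (p, q)).succ = y p ^ k * y q := by simp [gr, mon]

theorem gr_smul (k : ℕ) (c t : ℂ) (y : Fin (N + 1) → ℂ) :
    gr k (c ^ (k + 1) * t) (c • y) = c ^ (k + 1) • gr k t y := by
  funext j
  refine Fin.cases rfl (fun j => ?_) j
  simp only [gr, mon, Fin.cons_succ, Pi.smul_apply, smul_eq_mul]
  ring

theorem gr_ne (k : ℕ) (t : ℂ) {z : PN N} {a : Fin (N + 1)} (h : z.rep a ≠ 0) :
    gr k t (aff a z) ≠ 0 := fun e => by
  have := congrFun e (finProdFinEquiv (a, a)).succ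
  rw [gr_succ, show aff a z a = 1 from div_self h] at this
  simp at this

/-- an index with nonzero coordinate -/
def idx (z : PN N) : Fin (N + 1) := (Function.ne_iff.1 z.rep_nonzero).choose

theorem idx_ne (z : PN N) : z.rep (idx z) ≠ 0 := (Function.ne_iff.1 z.rep_nonzero).choose_spec

/-- the graph -/
def psi (Φ : X → PN N) (k : ℕ) (u : Fin (N + 1) → X → ℂ) (x : X) : PN ((N + 1) * (N + 1)) :=
  Projectivization.mk ℂ _ (gr_ne k (u (idx (Φ x)) x) (idx_ne (Φ x)))

variable {k : ℕ} {u : Fin (N + 1) → X → ℂ}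

theorem psi_eq
    (hu : ∀ a b x, (Φ x).rep a ≠ 0 → (Φ x).rep b ≠ 0 → u a x = aff a (Φ x) b ^ (k + 1) * u b x)
    {a : Fin (N + 1)} {x : X} (h : (Φ x).rep a ≠ 0) :
    psi Φ k u x = Projectivization.mk ℂ _ (gr_ne k (u a x) h) := by
  refine (Projectivization.mk_eq_mk_iff' ℂ _ _ _ _).2 ⟨aff (idx (Φ x)) (Φ x) a ^ (k + 1), ?_⟩
  rw [← gr_smul, ← hu _ _ x (idx_ne _) h]
  refine congrArg _ (funext fun j => ?_)
  simp only [aff, Pi.smul_apply, smul_eq_mul]
  field_simp

theorem psi_uniq (inj : Function.Injective Φ)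
    (hu : ∀ a b x, (Φ x).rep a ≠ 0 → (Φ x).rep b ≠ 0 → u a x = aff a (Φ x) b ^ (k + 1) * u b x)
    {i : Fin (N + 1)} {x x₀ : X} (h : (Φ x₀).rep i ≠ 0) {t : ℂ}
    (e : psi Φ k u x = Projectivization.mk ℂ _ (gr_ne k t h)) : x = x₀ ∧ t = u i x₀ := by
  have o : aff i (Φ x₀) i = 1 := div_self h
  have hi : (Φ x).rep i ≠ 0 := fun b => by
    obtain ⟨c, hc⟩ := (Projectivization.mk_eq_mk_iff ℂ _ _ _ _).1 e
    have := congrFun hc (finProdFinEquiv (i, i)).succ
    rw [Units.smul_def, Pi.smul_apply, gr_succ, gr_succ, o] at this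
    simp [aff, b] at this
  rw [psi_eq hu hi] at e
  obtain ⟨c, hc⟩ := (Projectivization.mk_eq_mk_iff' ℂ _ _ _ _).1 e
  have o' : aff i (Φ x) i = 1 := div_self hi
  have q : ∀ q, c * aff i (Φ x₀) q = aff i (Φ x) q := fun q => by
    have := congrFun hc (finProdFinEquiv (i, q)).succ
    rw [Pi.smul_apply, gr_succ, gr_succ, o, o'] at this
    simpa using this
  have c1 : c = 1 := by simpa [o, o'] using q i
  obtain rfl : x = x₀ := inj (by
    rw [mk_aff hi, mk_aff h]
    congr 1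
    exact funext fun j => by rw [← q, c1, one_mul])
  rw [c1, one_smul] at hc
  exact ⟨rfl, congrFun hc 0⟩

theorem lift_psi (hΦ : IsProjectiveImmersion (Cm n) Φ)
    (hh : ∀ a x (e : Chart n X), (Φ x).rep a ≠ 0 → At e x →
      AnalyticAt ℂ (fun z => u a (e.symm z)) (e x))
    (hu : ∀ a b x, (Φ x).rep a ≠ 0 → (Φ x).rep b ≠ 0 → u a x = aff a (Φ x) b ^ (k + 1) * u b x)
    (a : Fin (N + 1)) : IsLift n (psi Φ k u) {x | (Φ x).rep a ≠ 0}
      (fun x => gr k (u a x) (aff a (Φ x))) ∧ ∀ x, (Φ x).rep a ≠ 0 → ∀ e : Chart n X, At e x →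
      ∀ v q, fderiv ℂ (fun z => gr k (u a (e.symm z)) (aff a (Φ (e.symm z)))) (e x) v
        (finProdFinEquiv (a, q)).succ = fderiv ℂ (fun z => aff a (Φ (e.symm z))) (e x) v q := by
  have L := lift_aff hΦ a
  have ho : ∀ x, (Φ x).rep a ≠ 0 → ∀ e : Chart n X, At e x →
      ContDiffAt ℂ ω (fun z => gr k (u a (e.symm z)) (aff a (Φ (e.symm z)))) (e x) := by
    intro x hx e he
    have d := contDiffAt_pi.1 (L.holo x hx e he)
    refine contDiffAt_pi.2 fun j => Fin.cases (hh a x e hx he).contDiffAt (fun j => ?_) j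
    exact ((d _).pow k).mul (d _)
  have df : ∀ x, (Φ x).rep a ≠ 0 → ∀ e : Chart n X, At e x →
      ∀ v q, fderiv ℂ (fun z => gr k (u a (e.symm z)) (aff a (Φ (e.symm z)))) (e x) v
        (finProdFinEquiv (a, q)).succ = fderiv ℂ (fun z => aff a (Φ (e.symm z))) (e x) v q := by
    intro x hx e he v q
    have f1 := fderiv_apply ((ho x hx e he).differentiableAt (by simp))
      (finProdFinEquiv (a, q)).succ
    have f2 := fderiv_apply ((L.holo x hx e he).differentiableAt (by simp)) q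
    refine (DFunLike.congr_fun f1 v).symm.trans (Eq.trans ?_ (DFunLike.congr_fun f2 v))
    refine DFunLike.congr_fun (Filter.EventuallyEq.fderiv_eq ?_) v
    filter_upwards [ev_symm he L.isOpen hx] with z hz
    rw [gr_succ, show aff a (Φ (e.symm z)) a = 1 from div_self hz, one_pow, one_mul]
  refine ⟨⟨L.isOpen, ho, fun x hx => gr_ne k _ hx, fun x hx => psi_eq hu hx,
    fun x hx e he v c hv => L.imm x hx e he v c (funext fun q => ?_)⟩, df⟩
  rw [← df x hx e he, hv, Pi.smul_apply, Pi.smul_apply, gr_succ,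
    show aff a (Φ x) a = 1 from div_self hx, one_pow, one_mul]

end Vale.Agent.P299G40

end
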