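import Vale.Agent.P299G40.GAlg
import Vale.Agent.P299G40.GPsi
import Vale.Agent.P300LC.Main
import Mathlib.RingTheory.MvPolynomial.EulerIdentity

/-!
# P299G40: holomorphic sections of `O(k + 1)` are algebraic
-/

set_option linter.all false

open scoped Manifold ContDiff Topology
open MvPolynomial Vale.Agent.P272.K Vale.Agent.P300.Final Vale.Agent.P299.H223 Vale.Agent.P300LC
open Vale.Agent.P009.AV (aff)

noncomputable section

namespace Vale.Agent.P299G40

theorem chow' {n N : ℕ} {X : Type} [TopologicalSpace X] [ChartedSpace (Cm n) X] [CompactSpace X]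
    [ConnectedSpace X] {Φ : X → PN N} (inj : Function.Injective Φ)
    (hΦ : IsProjectiveImmersion (Cm n) Φ) : ∃ S, IsNonsingularZeroSetOf n S (Set.range Φ) := by
  obtain ⟨x⟩ : Nonempty X := inferInstance
  exact Cn.main (C := cone Φ Set.univ) ⟨fun h => h.1 rfl, fun v ⟨a, x, b, c⟩ s hs =>
    ⟨smul_ne_zero hs a, x, b, Submodule.smul_mem _ _ c⟩, cl_cone hΦ isClosed_univ, con_cone hΦ,
    fun v hv => par_cone inj hΦ hv⟩ ⟨_, (Φ x).rep_nonzero, x, trivial,
      (mem_iff (Φ x).rep_nonzero).2 (Φ x).mk_rep.symm⟩ fun z hz =>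
    ⟨fun ⟨x, a⟩ => ⟨hz, x, trivial, (mem_iff hz).2 a⟩, fun ⟨_, x, _, a⟩ => ⟨x, (mem_iff hz).1 a⟩⟩

theorem eval_mon {N : ℕ} (k : ℕ) (y : Fin (N + 1) → ℂ)
    (P : MvPolynomial (Fin ((N + 1) * (N + 1))) ℂ) :
    eval y (aeval (mon k (X : Fin (N + 1) → MvPolynomial (Fin (N + 1)) ℂ)) P) =
      eval (mon k y) P := by
  induction P using MvPolynomial.induction_on with
  | C a => simp
  | add p q hp hq => simp only [map_add, hp, hq]
  | mul_X p j hp => simp only [map_mul, hp, mon, aeval_X, eval_X, map_pow]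

/-- **GAGA** -/
theorem gaga : GAGA := by
  intro n N Z X _ _ _ _ _ _ Φ ⟨inj, hΦ, _⟩ k u hh hu i x₀ h₀
  obtain ⟨S, ⟨hom, zs⟩, jk⟩ := chow' (n := n) (Φ := psi Φ k u)
    (fun x y e => (psi_uniq inj hu (idx_ne (Φ y)) e).1)
    (imm_of_lift fun x => ⟨_, _, idx_ne (Φ x), (lift_psi hΦ hh hu (idx (Φ x))).1⟩)
  have z0 : ∀ x, (Φ x).rep i ≠ 0 → ∀ P ∈ S, eval (gr k (u i x) (aff i (Φ x))) P = 0 :=
    fun x hx => (zs _ (gr_ne k _ hx)).1 ⟨x, psi_eq hu hx⟩
  refine (core (Y := {x // (Φ x).rep i ≠ 0}) (fun x => mon k (aff i (Φ x)))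
    (fun x => u i x) S ⟨x₀, h₀⟩ (fun P hP y => z0 y y.2 P hP) ?a
    (fun t ht => ((zs _ (gr_ne k t h₀)).2 ht).elim fun x e => (psi_uniq inj hu h₀ e).2) ?b).elim
      fun P ⟨Q, q1, q2⟩ => ?c
  case c => exact ⟨aeval (mon k MvPolynomial.X) P, aeval (mon k MvPolynomial.X) Q, by rwa [eval_mon],
      fun x hx => by rw [eval_mon, eval_mon]; exact q2 ⟨x, hx⟩⟩
  case a =>
    by_contra! b
    have ne : (Fin.cons 1 0 : Fin ((N + 1) * (N + 1) + 1) → ℂ) ≠ 0 := fun e =>
      one_ne_zero (congrFun e 0)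
    obtain ⟨x, e⟩ := (zs _ ne).2 fun P hP => (hom P hP).elim (b P hP)
    obtain ⟨c, hc⟩ := (Projectivization.mk_eq_mk_iff' ℂ _ _ _ _).1 e
    have := congrFun hc (finProdFinEquiv (idx (Φ x), idx (Φ x))).succ
    rw [gr_succ, show aff (idx (Φ x)) (Φ x) (idx (Φ x)) = 1 from div_self (idx_ne _)] at this
    simp at this
  by_contra! b
  obtain ⟨L, df⟩ := lift_psi hΦ hh hu i
  have he := at_chart (n := n) x₀
  set e : Chart n X := chartAt (Cm n) x₀
  set σ := fun z => gr k (u i (e.symm z)) (aff i (Φ (e.symm z)))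
  set z₀ := gr k (u i x₀) (aff i (Φ x₀)) with hz₀
  have o : aff i (Φ x₀) i = 1 := div_self h₀
  let Λ : (ℂ × ℂ × Cm n) →ₗ[ℂ] (Fin ((N + 1) * (N + 1) + 1) → ℂ) :=
    (LinearMap.toSpanSingleton ℂ _ (Pi.single 0 1)).coprod
      ((LinearMap.toSpanSingleton ℂ _ z₀).coprod (fderiv ℂ σ (e x₀)).toLinearMap)
  have ΛK : ∀ p, Λ p ∈ jacobianKernel S z₀ := fun p => by
    refine Submodule.add_mem _ (Submodule.smul_mem _ _ fun P hP => ?_) (Submodule.add_mem _
      (Submodule.smul_mem _ _ fun P hP => ?_) fun P hP => ?_)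
    · rw [polynomialDifferential, Finset.sum_eq_single 0 (fun j _ hj => by simp [hj]) (by simp)]
      exact mul_eq_zero_of_right _ (b P hP)
    · obtain ⟨d, hd⟩ := hom P hP
      have := congrArg (eval z₀) hd.sum_X_mul_pderiv
      simp only [map_sum, map_mul, eval_X, map_nsmul, z0 x₀ h₀ P hP, hz₀, smul_zero] at this
      exact this
    · have s0 : σ (e x₀) = z₀ := by simp only [σ, he.left_inv, hz₀]
      have c := fderiv_comp (e x₀) (an_ev P (σ (e x₀))).differentiableAt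
        ((L.holo x₀ h₀ e he).differentiableAt (by simp))
      have c0 : ev P ∘ σ =ᶠ[𝓝 (e x₀)] fun _ => 0 := by
        filter_upwards [ev_symm he L.isOpen h₀] with z hz using z0 _ hz P hP
      rw [c0.fderiv_eq, fderiv_fun_const, s0] at c
      exact (fd_ev P z₀ _).symm.trans (DFunLike.congr_fun c p.2.2).symm
  have Λi : Function.Injective Λ := (injective_iff_map_eq_zero _).2 fun p hp => by
    have a1 : fderiv ℂ (fun z => aff i (Φ (e.symm z))) (e x₀) p.2.2 = -p.2.1 • aff i (Φ x₀) := by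
      funext q
      have := congrFun hp (finProdFinEquiv (i, q)).succ
      simp only [Λ, LinearMap.coprod_apply, LinearMap.toSpanSingleton_apply, Pi.add_apply,
        Pi.smul_apply, hz₀, gr_succ, o, ContinuousLinearMap.coe_coe, df x₀ h₀ e he, σ,
        Pi.single_eq_of_ne (Fin.succ_ne_zero _), smul_eq_mul, Pi.zero_apply] at this ⊢
      linear_combination this
    have a2 := (lift_aff hΦ i).imm x₀ h₀ e he _ _ a1
    have a3 : p.2.1 = 0 := by simpa [a2, o] using congrFun a1 i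
    have a4 : p.1 = 0 := by simpa [Λ, a2, a3] using congrFun hp 0
    exact Prod.ext a4 (Prod.ext a3 a2)
  have := LinearMap.finrank_le_finrank_of_injective (f := Λ.codRestrict _ ΛK)
    ((Λ.injective_codRestrict_iff _).2 Λi)
  rw [jk _ (gr_ne k _ h₀) ⟨x₀, psi_eq hu h₀⟩] at this
  simp at this
  omega

end Vale.Agent.P299G40

end
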