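import Vale.Agent.P299G40.Defs

/-!
# P299: smooth connected projective varieties
-/

open Vale.Agent.P009.AV (IsZar IrrClosed)

namespace Vale.Agent.P299G40

variable {N : ℕ}

/-- `d` is the dimension of `Z` at `z` (the Krull dimension of its local ring): the greatest length
of a chain of closed irreducible subsets of `Z` through `z`. -/
def HasDimAt (Z : Set (PN N)) (z : PN N) (d : ℕ) : Prop :=
  IsGreatest {k : ℕ | ∃ c : Fin (k + 1) → Set (PN N), StrictMono c ∧
    ∀ i, IrrClosed (c i) ∧ z ∈ c i ∧ c i ⊆ Z} d

/-- `Z` is a smooth connected projective variety: closed, nonempty and connected in the Zariski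
topology, and at every point the Zariski tangent space has the dimension of `Z` at this point. -/
structure IsSmoothConnected (Z : Set (PN N)) : Prop where
  closed : IsZar Z
  nonempty : Z.Nonempty
  connected : ∀ A B, IsZar A → IsZar B → Z = A ∪ B → Disjoint A B → A = ∅ ∨ B = ∅
  smooth : ∀ z ∈ Z, ∃ d, HasDimAt Z z d ∧ Module.finrank ℂ (tangent Z z) = d + 1

end Vale.Agent.P299G40
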