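import Mathlib.RingTheory.Nakayama
import Mathlib.RingTheory.MvPolynomial.Homogeneous
import Mathlib.Algebra.MvPolynomial.PDeriv
import Mathlib.Analysis.Complex.Polynomial.Basic
import Mathlib.RingTheory.IntegralClosure.IsIntegral.Basic

/-!
# P299G40: the algebra behind GAGA
-/

set_option linter.all false

open Polynomial

namespace Vale.Agent.P299G40

/-- Nakayama: an integral element that is a simple root at a point is rational at this point -/
theorem nak {R A : Type*} [CommRing R] [CommRing A] [Algebra R A] {u : A} (hu : IsIntegral R u)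
    (φ : R →+* ℂ) (c : R) (G : R[X]) (hG : aeval u G = 0) (h : G.map φ = X - C (φ c)) :
    ∃ P Q : R, φ Q = 1 ∧ Q • u = algebraMap R A P := by
  let B := (Algebra.adjoin R {u}).toSubmodule
  have m : ∀ f : R[X], aeval u f ∈ B := fun f => aeval_mem_adjoin_singleton R u
  have k : ∀ f : R[X], f.map φ = 0 → aeval u f ∈ RingHom.ker φ • B := fun f hf => by
    rw [aeval_eq_sum_range]
    refine Submodule.sum_mem _ fun j _ => Submodule.smul_mem_smul ?_ ?_
    · simpa using congrArg (coeff · j) hf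
    · simpa using m (X ^ j)
  obtain ⟨Q, q1, q2⟩ := Submodule.exists_sub_one_mem_and_smul_le_of_fg_of_le_sup
    (I := RingHom.ker φ) (N := Submodule.span R {1}) hu.fg_adjoin_singleton (le_refl B) (by
      intro b hb
      obtain ⟨f, rfl⟩ := (Algebra.adjoin_singleton_eq_range_aeval R u).le hb
      have e := modByMonic_add_div f (X - C c)
      rw [modByMonic_X_sub_C_eq_C_eval] at e
      have e2 : aeval u f = eval c f • (1 : A) + aeval u ((X - C c - G) * (f /ₘ (X - C c))) := by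
        rw [sub_mul, map_sub, map_mul _ G, hG, zero_mul, sub_zero, ← Algebra.algebraMap_eq_smul_one,
          ← aeval_C u, ← map_add, e]
      rw [AlgHom.toRingHom_eq_coe, RingHom.coe_coe, e2]
      refine Submodule.add_mem_sup (Submodule.smul_mem _ _ (Submodule.mem_span_singleton_self _))
        (k _ ?_)
      simp [h])
  obtain ⟨P, hP⟩ := Submodule.mem_span_singleton.1
    (q2 (Submodule.smul_mem_pointwise_smul u Q B (by simpa using m X)))
  refine ⟨P, Q, ?_, by rw [← hP, Algebra.algebraMap_eq_smul_one]⟩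
  simpa [sub_eq_zero] using q1

/-- an ideal of `ℂ[T]` with the only common root `a`, which is a simple root of one element -/
theorem lin_mem (J : Ideal ℂ[X]) (a : ℂ) (h : ∀ t, (∀ g ∈ J, g.eval t = 0) → t = a) {g : ℂ[X]}
    (hg : g ∈ J) (g0 : g.eval a = 0) (g1 : g.derivative.eval a ≠ 0) : X - C a ∈ J := by
  obtain ⟨p, rfl⟩ := (IsPrincipalIdealRing.principal J).principal
  obtain ⟨q, rfl⟩ := dvd_iff_isRoot.2 g0
  refine Ideal.mem_span_singleton.2 (IsCoprime.dvd_of_dvd_mul_right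
    ((isCoprime_iff_aeval_ne_zero_of_isAlgClosed ℂ ℂ p q).2 fun t => ?_)
    (Ideal.mem_span_singleton.1 hg))
  refine or_iff_not_imp_left.2 fun b => ?_
  rw [h t fun g hg => by
    obtain ⟨r, rfl⟩ := Ideal.mem_span_singleton.1 hg
    rw [eval_mul, show eval t p = 0 by simpa using b, zero_mul]]
  simpa using g1

open MvPolynomial (finSuccEquiv pderiv IsHomogeneous)

variable {M : ℕ}

theorem der_fin (P : MvPolynomial (Fin (M + 1)) ℂ) :
    derivative (finSuccEquiv ℂ M P) = finSuccEquiv ℂ M (pderiv 0 P) := by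
  induction P using MvPolynomial.induction_on with
  | C a =>
    rw [MvPolynomial.pderiv_C, map_zero, ← MvPolynomial.algebraMap_eq, AlgEquiv.commutes,
      Polynomial.algebraMap_apply, derivative_C]
  | add p q hp hq => simp only [map_add, hp, hq]
  | mul_X p j hp =>
    rw [map_mul, derivative_mul, hp, MvPolynomial.pderiv_mul, map_add, map_mul, map_mul]
    refine congrArg₂ (· + ·) rfl (congrArg₂ (· * ·) rfl ?_)
    refine Fin.cases ?_ (fun j => ?_) j
    · simp [MvPolynomial.finSuccEquiv_X_zero]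
    · rw [MvPolynomial.finSuccEquiv_X_succ, derivative_C,
        MvPolynomial.pderiv_X_of_ne (Fin.succ_ne_zero j), map_zero]

theorem monic_fin {P : MvPolynomial (Fin (M + 1)) ℂ} {d : ℕ} (hP : P.IsHomogeneous d)
    (h : MvPolynomial.eval (Fin.cons 1 0 : Fin (M + 1) → ℂ) P ≠ 0) :
    ∃ c : ℂ, (C (MvPolynomial.C c) * finSuccEquiv ℂ M P).Monic := by
  have d1 : (finSuccEquiv ℂ M P).natDegree ≤ d := by
    rw [MvPolynomial.natDegree_finSuccEquiv]
    exact (MvPolynomial.degreeOf_le_totalDegree P 0).trans hP.totalDegree_le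
  have c1 := MvPolynomial.totalDegree_eq_zero_iff_eq_C.1
    (Nat.le_zero.1 (hP.finSuccEquiv_coeff_isHomogeneous d 0 rfl).totalDegree_le)
  generalize MvPolynomial.coeff 0 ((finSuccEquiv ℂ M P).coeff d) = c at c1
  have c0 : c ≠ 0 := by
    rintro rfl
    refine h ?_
    rw [MvPolynomial.eval_eq_eval_mv_eval', (?_ : map _ _ = 0), eval_zero]
    ext j
    rw [coeff_map, coeff_zero, MvPolynomial.eval_zero, MvPolynomial.constantCoeff_eq]
    rcases lt_trichotomy j d with b | rfl | b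
    · exact (hP.finSuccEquiv_coeff_isHomogeneous j (d - j) (by omega)).coeff_eq_zero
        (by simp; omega)
    · simp [c1]
    · simp [coeff_eq_zero_of_natDegree_lt (d1.trans_lt b)]
  refine ⟨c⁻¹, monic_of_natDegree_le_of_coeff_eq_one d ((natDegree_C_mul_le _ _).trans d1) ?_⟩
  rw [coeff_C_mul, c1, ← map_mul, inv_mul_cancel₀ c0, map_one]

/-- the algebraic core -/
theorem core {Y : Type} (w : Y → Fin M → ℂ) (u : Y → ℂ) (S : Set (MvPolynomial (Fin (M + 1)) ℂ))
    (y₀ : Y) (h0 : ∀ P ∈ S, ∀ y, MvPolynomial.eval (Fin.cons (u y) (w y) : Fin (M + 1) → ℂ) P = 0)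
    (ha : ∃ P ∈ S, ∃ d, P.IsHomogeneous d ∧
      MvPolynomial.eval (Fin.cons 1 0 : Fin (M + 1) → ℂ) P ≠ 0)
    (hb : ∀ t, (∀ P ∈ S, MvPolynomial.eval (Fin.cons t (w y₀) : Fin (M + 1) → ℂ) P = 0) → t = u y₀)
    (hc : ∃ P ∈ S, MvPolynomial.eval (Fin.cons (u y₀) (w y₀) : Fin (M + 1) → ℂ) (pderiv 0 P) ≠ 0) :
    ∃ P Q : MvPolynomial (Fin M) ℂ, MvPolynomial.eval (w y₀) Q ≠ 0 ∧
      ∀ y, MvPolynomial.eval (w y) Q * u y = MvPolynomial.eval (w y) P := by
  letI : Algebra (MvPolynomial (Fin M) ℂ) (Y → ℂ) :=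
    (Pi.ringHom fun y => MvPolynomial.eval (w y)).toAlgebra
  have a1 : ∀ (G : (MvPolynomial (Fin M) ℂ)[X]) y,
      aeval u G y = eval (u y) (G.map (MvPolynomial.eval (w y))) := fun G y => by
    rw [eval_map, aeval_def]
    exact hom_eval₂ G _ (Pi.evalRingHom (fun _ => ℂ) y) u
  have a2 : ∀ P ∈ S, aeval u (finSuccEquiv ℂ M P) = 0 := fun P hP => funext fun y => by
    rw [a1, ← MvPolynomial.eval_eq_eval_mv_eval']
    exact h0 P hP y
  obtain ⟨P, hP, d, hd, p1⟩ := ha
  obtain ⟨c, hc1⟩ := monic_fin hd p1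
  obtain ⟨P', hP', p2⟩ := hc
  have sj : Function.Surjective (mapRingHom (MvPolynomial.eval (w y₀))) :=
    map_surjective _ fun a => ⟨MvPolynomial.C a, MvPolynomial.eval_C a⟩
  have a3 : ∀ P ∈ S, (finSuccEquiv ℂ M P).map (MvPolynomial.eval (w y₀)) ∈
      (RingHom.ker (aeval u : (MvPolynomial (Fin M) ℂ)[X] →ₐ[_] (Y → ℂ))).map
        (mapRingHom (MvPolynomial.eval (w y₀))) := fun P hP =>
    Ideal.mem_map_of_mem (mapRingHom (MvPolynomial.eval (w y₀))) (a2 P hP)
  obtain ⟨G, g1, g2⟩ := (Ideal.mem_map_iff_of_surjective _ sj).1 (lin_mem _ (u y₀)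
    (fun t ht => hb t fun P hP => (MvPolynomial.eval_eq_eval_mv_eval' _ _ _).trans (ht _ (a3 P hP)))
    (a3 P' hP') ((MvPolynomial.eval_eq_eval_mv_eval' _ _ _).symm.trans (h0 P' hP' y₀))
    (by rwa [derivative_map, der_fin, ← MvPolynomial.eval_eq_eval_mv_eval']))
  obtain ⟨A, Q, q1, q2⟩ := nak (u := u) ⟨_, hc1, by
    rw [← aeval_def, map_mul, a2 P hP, mul_zero]⟩ (MvPolynomial.eval (w y₀))
    (MvPolynomial.C (u y₀)) G g1 (by rw [MvPolynomial.eval_C]; exact g2)
  refine ⟨A, Q, q1 ▸ one_ne_zero, fun y => ?_⟩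
  rw [Algebra.smul_def] at q2
  exact congrFun q2 y

end Vale.Agent.P299G40
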