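import Vale.Agent.P299G40.Gaga

/-!
# P299G40: from the manifold to the variety
-/

set_option linter.all false

open scoped Manifold ContDiff
open MvPolynomial Vale.Agent.P272.K Vale.Agent.P299.Final Vale.Agent.P300.Final

namespace Vale.Agent.P299G40

variable {n N : ℕ} {Z : Set (PN N)} {X : Type} [TopologicalSpace X] [ChartedSpace (Cm n) X]
  {Φ : X → PN N}

theorem proj (hZ : IsSmoothVariety n Z) (h : IsAnalytification n Z Φ) :
    IsSmoothProjective (Cm n) X := by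
  obtain ⟨S, hom, hS⟩ := hZ.irr.1
  refine ⟨N, Φ, h.1, h.2.1, S, hom, fun z hz => ?_⟩
  rw [h.2.2, hS]
  obtain ⟨c, hc⟩ := Projectivization.exists_smul_eq_mk_rep ℂ z hz
  refine forall₂_congr fun P hP => ?_
  obtain ⟨d, hd⟩ := hom P hP
  have := P300LC.hom_ev hd (c : ℂ) z
  rw [← hc, Units.smul_def]
  refine (iff_of_eq (congrArg (· = 0) this)).trans ?_
  simp [P300LC.ev]

theorem nonzero [IsManifold 𝓘(ℂ, Cm n) ω X] (frm : FRM) (hZ : IsSmoothVariety n Z)
    (h : IsAnalytification n Z Φ) {m : ℕ} {s : Chart n X → Cm n → ℂ}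
    {g : Fin (N + 1) → (Fin n → Fin (N + 1)) → PN N → ℂ} (hs : IsNonzeroSection s)
    (r : Represents Z Φ m s g) : ∃ i J, ∃ z ∈ dom Z i J, g i J z ≠ 0 := by
  obtain ⟨e, x, he, s0⟩ := hs
  obtain ⟨-, a, i, J, b⟩ := frm n N Z X Φ hZ h e x he
  refine ⟨i, J, _, b, ?_⟩
  rw [r e x i J he b]
  exact mul_ne_zero s0 (pow_ne_zero _ ((a i J).1 b).2)

end Vale.Agent.P299G40
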